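import Crest.Agent.X212.Geo48.Up

/-!
# Row 212, AB-BRK (helper48): the necks of the filled manifold, its pieces
-/

set_option autoImplicit false
set_option linter.unusedSectionVars false
noncomputable section
open Set Function Filter Topology MeasureTheory
open scoped ContDiff Manifold

namespace Crest.Agent.X212.Geo48
open An M Cyl58 Cyf70 Cht98
open Nd18 (Nk Jv)
open Pj41 (GRel)

/-! ### depth -/

section len
variable {τ s R : ℝ}

/-- the depth up to which the finite neck is the end -/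
def dep (τ : ℝ) : ℝ := -len 1 true ((1 - τ) / 2)

theorem exists_dep (R : ℝ) : ∃ τ, 1 / 2 ≤ τ ∧ τ < 1 ∧ R ≤ dep τ := by
  obtain ⟨s, h1, h2⟩ := ((tendsto_len_one_true.eventually (eventually_le_atBot (-R))).and
    (Ioo_mem_nhdsGT (show (0 : ℝ) < 1 / 4 by norm_num))).exists
  exact ⟨1 - 2 * s, by linarith [h2.2], by linarith [h2.1], by
    rw [dep, show (1 - (1 - 2 * s)) / 2 = s by ring]; linarith⟩

theorem len_false_neg (t s : ℝ) : len t false (-s) = -len t true s := len_neg t true s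

variable (lo : 1 / 2 ≤ τ) (hi : τ < 1)
include lo hi

theorem len_dep : len τ true ((1 - τ) / 2) = -dep τ := by
  rw [dep, neg_neg, len_eq_len_one lo (by simp [pm])]

theorem len_zero : len τ true 0 ≤ -dep τ := len_dep lo hi ▸
  (strictMonoOn_len τ true).monotoneOn (.inl hi) (.inl hi) (by linarith)

theorem dep_le : 2 * dep τ ≤ nl τ := by
  have a := len_false hi 0
  have b := len_false_neg τ 0
  rw [neg_zero] at b
  linarith [len_zero lo hi]

theorem le_iff_true (hR : R ≤ dep τ) (hs : 0 < s) : len 1 true s ≤ -R ↔ len τ true s ≤ -R := by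
  rcases le_total ((1 - τ) / 2) s with k | k
  · rw [len_eq_len_one lo (b := true) (by simpa [pm] using k)]
  · have a := (strictMonoOn_len τ true).monotoneOn (.inl hi) (.inl hi) k
    have b := (strictMonoOn_len 1 true).monotoneOn (.inr hs) (.inr (show 0 < (1 - τ) / 2 by linarith)) k
    rw [len_dep lo hi] at a
    exact iff_of_true (by unfold dep at hR; linarith) (by linarith)

theorem le_iff_false (hR : R ≤ dep τ) (hs : s < 0) : R ≤ len 1 false s ↔ R ≤ len τ false s := by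
  rw [← neg_neg s, len_false_neg, len_false_neg, le_neg, le_neg (a := R)]
  exact le_iff_true lo hi hR (neg_pos.2 hs)

omit lo in
theorem li_ge {r : ℝ} (h0 : r < 0) (h : -dep τ ≤ r) : (1 - τ) / 2 ≤ li 1 true r := by
  have k : r ∈ Jv (np 1 true) (nq 1 true) := ⟨by simp [np_one], by simpa [nq_true] using h0⟩
  refine ((strictMonoOn_len 1 true).le_iff_le (.inr (show 0 < (1 - τ) / 2 by linarith)) (li_mem le_rfl k).2).1 ?_
  rwa [len_li le_rfl k, ← neg_neg (len ..)]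

omit lo in
theorem li_le {r : ℝ} (h0 : 0 < r) (h : r ≤ dep τ) : (1 - τ) / 2 ≤ -li 1 false r := by
  have k : r ∈ Jv (np 1 false) (nq 1 false) := ⟨by simpa [np_false] using h0, by simp [nq_one]⟩
  refine le_neg.1 (((strictMonoOn_len 1 false).le_iff_le (li_mem le_rfl k).2
    (.inr (show -((1 - τ) / 2) < 0 by linarith))).1 ?_)
  rwa [len_li le_rfl k, len_false_neg]

end len

variable {X : Mf 4} {A κ lam : Type} [Fintype A] [Fintype κ] [Fintype lam] [DecidableEq lam]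
  {M : Mark X A κ} {N : ML M lam} {W : World M} {Λ : Lns W N} {m c d : M.Cl} {t : A → ℝ} {τ R : ℝ} {a : A}
  {p : Prm A} {b : Bool}

theorem hZ_up (C : Caps M) (h : M.Up d c) (ha : a ∈ c.1 ∧ ¬M.pin a) (ha' : a ∈ M.sys.fr d.1) (z : (C.Z c).M) :
    hZ C d a (C.up d c z) = hZ C c a z := by
  rcases caps_surj C z with ⟨x, hx, rfl⟩ | ⟨a', h1, h2, b, rfl⟩
  · rw [C.up_φ h hx, hZ_φ C (.inr ha') (Mark.cores_mono h.1 hx), hZ_φ C (.inl ha) hx]
  · rw [C.up_β h h1 h2]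
    have k : hZ C c a (C.β c a' b 0) = _ := (capsD C c).lift_cap _ _ ⟨(a', b), h1, h2⟩ (0 : V4)
    exact ((capsD C d).lift_cap _ _ ⟨(a', b), h.2 a' h1 h2, h2⟩ (0 : V4)).trans k.symm

/-- the literal end of the broken wall `a` on the side `b` -/
structure End (b : Bool) (K : Nk (N.cy a).yd (Λ.B m c) (Λ.G m c p)) : Prop where
  p : K.p = if b then none else some 0
  q : K.q = if b then some 0 else none
  ψ : ∀ y s, 0 < pm b * s → pm b * s < 1 → K.ψ (y, len 1 b s) = W.nj c a (y, s)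

theorem hs_iff {s : ℝ} : s ∈ Hs 1 b ↔ 0 < pm b * s ∧ pm b * s < 1 := by
  cases b <;> simp only [Hs, dom, pm, mem_inter_iff, mem_Ioo, mem_ofPred_eq, lt_irrefl, false_or, if_true,
    Bool.false_eq_true, if_false, neg_mul, one_mul] <;>
  exact ⟨fun h => ⟨by linarith [h.2], by linarith [h.1.1, h.1.2]⟩,
    fun h => ⟨⟨by linarith [h.1, h.2], by linarith [h.1, h.2]⟩, by linarith [h.1]⟩⟩

namespace End
variable {K : Nk (N.cy a).yd (Λ.B m c) (Λ.G m c p)} (h : End b K)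
include h

theorem J : K.J = Jv (np 1 b) (nq 1 b) := by
  rw [Nk.J, h.p, h.q]; cases b <;> simp [np, nq]

theorem mem_J {r : ℝ} : r ∈ K.J ↔ pm b * r < 0 := by
  rw [Nk.J, h.p, h.q]; cases b <;> simp [Jv, pm]

theorem ψ' (y : (M.bn a).Y.M) {r : ℝ} (hr : r ∈ K.J) : K.ψ (y, r) = W.nj c a (y, li 1 b r) := by
  rw [h.J] at hr
  have k := hs_iff.1 (li_mem le_rfl hr)
  rw [← h.ψ y _ k.1 k.2, len_li le_rfl hr]

theorem tm (y : (M.bn a).Y.M) {s : ℝ} (hs : s ∈ Hs 1 b) : K.tm (W.nj c a (y, s)) = len 1 b s := by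
  rw [← h.ψ y s (hs_iff.1 hs).1 (hs_iff.1 hs).2]
  exact K.tm_ψ _ (K.src ▸ ⟨trivial, show len 1 b s ∈ K.J from h.J ▸ (bijOn_len le_rfl b).1 hs⟩)

theorem ex {z : (W.Z c).M} (hz : K.tm z ∈ K.J) : ∃ y, ∃ s ∈ Hs 1 b, W.nj c a (y, s) = z := by
  obtain ⟨q, hq, rfl⟩ := K.ψ.surjOn (K.tgt ▸ hz : z ∈ K.ψ.target)
  rw [K.src] at hq
  exact ⟨q.1, _, li_mem le_rfl (h.J ▸ hq.2), (h.ψ' q.1 hq.2).symm⟩

theorem target : K.ψ.target = W.φ c '' (M.bn a).slab {s | pm b * s ∈ Ioo 0 1} := by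
  refine Subset.antisymm (fun z hz => ?_) ?_
  · obtain ⟨y, s, hs, rfl⟩ := h.ex (z := z) (by rwa [K.tgt] at hz)
    exact ⟨_, ⟨(y, s), ⟨trivial, hs_iff.1 hs⟩, rfl⟩, rfl⟩
  · rintro _ ⟨_, ⟨⟨y, s⟩, hs, rfl⟩, rfl⟩
    rw [K.tgt]
    show K.tm (W.nj c a (y, s)) ∈ K.J
    rw [h.tm y (hs_iff.2 hs.2), h.J]
    exact (bijOn_len le_rfl b).1 (hs_iff.2 hs.2)

end End

namespace Fl
variable (h : Fl m c d t τ) (Λ) (u : ℝ) (ha : a ∈ c.1 \ d.1)
include h ha

theorem nkOK : NkOK M m d (u, fil c d τ t) a :=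
  .of_fr (h.cyl ha) (h.fr ha) (h.mem ha) (h.O' u) h.par' (h.lo.trans_eq (fil_mem ha).symm)

theorem tv : Mark.tv d.1 (fil c d τ t) a = τ := (Mark.tv_fr (h.fr ha) _).trans (fil_mem ha)

/-- the neck of the filled wall -/
def nk : Nk (N.cy a).yd (Λ.B m d) (Λ.G m d (u, fil c d τ t)) :=
  (h.nkOK u ha).nk (Diffeomorph.refl _ _ ∞) Λ (M.gvol a) (cy_iso_refl _) false

theorem nk_p : (h.nk Λ u ha).p = some 0 := rfl

theorem nk_q : (h.nk Λ u ha).q = some (nl τ) := (congrArg (nq · false) (h.tv ha)).trans (nq_false h.hi)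

theorem nk_J : (h.nk Λ u ha).J = Ioo 0 (nl τ) := by
  rw [Nk.J, nk_p, nk_q]; ext; simp [Jv]

theorem nk_ψ (y : (M.bn a).Y.M) (r : ℝ) : (h.nk Λ u ha).ψ (y, r) = W.nj d a (y, li τ false r) :=
  congrArg (fun s => W.nj d a (y, li s false r)) (h.tv ha)

theorem nk_tm (z : (W.Z d).M) : (h.nk Λ u ha).tm z = tmf τ false (hZ W.toCaps d a z) :=
  congrArg (tmf · false _) (h.tv ha)

theorem tm_nj (y : (M.bn a).Y.M) {s : ℝ} (hs : |s| ≤ 1) : (h.nk Λ u ha).tm (W.nj d a (y, s)) = len τ false s := by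
  rw [nk_tm, hZ_nj _ (.inr (h.fr ha)) (Mark.fr_not_mem (h.fr ha) ⟨_, rfl⟩) (hs.trans (by norm_num)),
    tmf_eq (.inl h.hi) hs]

omit h in
theorem nm (y : (M.bn a).Y.M) {s : ℝ} (hs : s ∈ Hs 1 b) : (M.bn a).j (y, s) ∉ M.sys.cores c.1 := fun k => by
  have := (hs_iff.1 hs).1
  rw [show s = 0 from (j_mem_cores ha.1).1 k, mul_zero] at this
  exact this.false

variable {Λ u} {K : Nk (N.cy a).yd (Λ.B m c) (Λ.G m c p)}

/-- the left end is the beginning of the neck -/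
theorem mt0 (e : End false K) (y : (M.bn a).Y.M) {r : ℝ} (h0 : 0 < r) (h1 : r ≤ dep τ) :
    W.up d c (K.ψ (y, r)) = (h.nk Λ u ha).ψ (y, r) := by
  have k : r ∈ K.J := e.mem_J.2 (by simpa [pm] using h0)
  rw [e.ψ' y k, nk_ψ, (li_eq_li_one h.lo h.hi (e.J ▸ k) (by simpa [pm] using li_le h.hi h0 h1)).2]
  exact W.up_φ h.up (nm ha y (li_mem le_rfl (e.J ▸ k)))

/-- the right end is the end of the neck -/
theorem mt1 (e : End true K) (y : (M.bn a).Y.M) {r : ℝ} (h0 : r < 0) (h1 : -dep τ ≤ r) :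
    W.up d c (K.ψ (y, r)) = (h.nk Λ u ha).ψ (y, r + nl τ) := by
  have k : r ∈ K.J := e.mem_J.2 (by simpa [pm] using h0)
  obtain ⟨a1, a2⟩ := li_eq_li_one h.lo h.hi (e.J ▸ k) (by simpa [pm] using li_ge h.hi h0 h1)
  have := a1.1 _ (np_true h.hi)
  rw [e.ψ' y k, nk_ψ, li_false h.hi ⟨by simp [np_false]; linarith, by simpa [nq_false h.hi] using h0⟩,
    add_sub_cancel_right, a2]
  exact W.up_φ h.up (nm ha y (li_mem le_rfl (e.J ▸ k)))

/-- depth on the ends and on the neck -/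
theorem tm_iff {K' : Nk (N.cy a).yd (Λ.B m c) (Λ.G m c p)} (e : End false K) (e' : End true K') (h0 : 0 < R)
    (hR : R ≤ dep τ) (z : (W.Z c).M) : K.tm z < R ∧ -R < K'.tm z ↔
      (h.nk Λ u ha).tm (W.up d c z) < R ∨ nl τ - R < (h.nk Λ u ha).tm (W.up d c z) := by
  have hd := dep_le h.lo h.hi
  have z0 := len_zero h.lo h.hi
  have z1 := len_false h.hi 0
  have z2 := len_false_neg τ 0
  rw [neg_zero] at z2
  have key : ∀ {b} y s, s ∈ Hs 1 b → (h.nk Λ u ha).tm (W.up d c (W.nj c a (y, s))) = len τ false s :=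
    fun y s hs => by
      rw [show W.up d c (W.nj c a (y, s)) = W.nj d a (y, s) from W.up_φ h.up (nm ha y hs)]
      exact h.tm_nj Λ u ha y (abs_lt.2 hs.1).le
  have mono := (strictMonoOn_len τ false).monotoneOn
  rw [← not_iff_not, not_and_or, not_or, not_lt, not_lt, not_lt, not_lt]
  refine ⟨?_, fun k => ?_⟩
  · rintro (k | k)
    · obtain ⟨y, s, hs, rfl⟩ := e.ex (e.mem_J.2 (show pm false * K.tm z < 0 by simp only [pm]; norm_num; linarith))
      have s0 : s < 0 := hs.2.resolve_left (lt_irrefl _)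
      rw [e.tm y hs, le_iff_false h.lo h.hi hR s0] at k
      rw [key y s hs]
      exact ⟨k, by linarith [mono (.inl h.hi) (.inl h.hi) s0.le]⟩
    · obtain ⟨y, s, hs, rfl⟩ := e'.ex (e'.mem_J.2 (show pm true * K'.tm z < 0 by simp only [pm]; norm_num; linarith))
      have s0 : 0 < s := hs.2.resolve_left (lt_irrefl _)
      rw [e'.tm y hs, le_iff_true h.lo h.hi hR s0] at k
      rw [key y s hs]
      exact ⟨by linarith [mono (.inl h.hi) (.inl h.hi) s0.le], by linarith [len_false h.hi s]⟩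
  · have i : a ∈ c.1 ∧ ¬M.pin a := ⟨ha.1, h.cyl ha⟩
    have m : hZ W.toCaps c a z ∈ Hs τ false := by
      rw [← tmf_mem, ← hZ_up _ h.up i (h.fr ha), ← h.nk_tm Λ u ha, np_false, nq_false h.hi]
      exact ⟨by simp; linarith [k.1], by simp; linarith [k.2]⟩
    obtain ⟨y, -, j⟩ := exists_of_hZ W.toCaps (.inl i) (z := z) ((abs_lt.2 m.1).trans (by norm_num))
    have n0 := hZ_ne W.toCaps i.1 i.2 z
    generalize hZ W.toCaps c a z = s at *
    subst j
    rcases n0.lt_or_gt with s0 | s0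
    · have hs : s ∈ Hs 1 false := ⟨m.1, .inr s0⟩
      rw [key y s hs] at k
      exact .inl (by rw [e.tm y hs, le_iff_false h.lo h.hi hR s0]; exact k.1)
    · have hs : s ∈ Hs 1 true := ⟨m.1, .inr s0⟩
      rw [key y s hs] at k
      exact .inr (by rw [e'.tm y hs, le_iff_true h.lo h.hi hR s0]; linarith [k.2, len_false h.hi s])

/-- off the deep parts of the ends -/
theorem lt_hZ {K' : Nk (N.cy a).yd (Λ.B m c) (Λ.G m c p)} (e : End false K) (e' : End true K') (hR : R ≤ dep τ)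
    {z : (W.Z c).M} (h1 : K.tm z < R) (h2 : -R < K'.tm z) : (1 - τ) / 2 < |hZ W.toCaps c a z| := by_contra fun k => by
  have i : a ∈ c.1 ∧ ¬M.pin a := ⟨ha.1, h.cyl ha⟩
  have lo := h.lo
  rw [not_lt, abs_le] at k
  obtain ⟨y, -, j⟩ := exists_of_hZ W.toCaps (.inl i) (z := z) (abs_lt.2 ⟨by linarith [k.1], by linarith [k.2]⟩)
  have n0 := hZ_ne W.toCaps i.1 i.2 z
  generalize hZ W.toCaps c a z = s at *
  subst j
  have e0 : 0 < (1 - τ) / 2 := by linarith [h.hi]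
  rcases n0.lt_or_gt with s0 | s0
  · rw [e.tm y ⟨⟨by linarith [k.1], by linarith⟩, .inr s0⟩] at h1
    have := (strictMonoOn_len 1 false).monotoneOn (.inr (neg_lt_zero.2 e0)) (.inr s0) k.1
    rw [len_false_neg] at this
    unfold dep at hR; linarith
  · rw [e'.tm y ⟨⟨by linarith, by linarith [k.2]⟩, .inr s0⟩] at h2
    have := (strictMonoOn_len 1 true).monotoneOn (.inr s0) (.inr e0) k.2
    unfold dep at hR; linarith

omit ha in
/-- off the middle parts of the necks -/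
theorem mem_range (hR : R ≤ dep τ) {w : (W.Z d).M} (hw : ∀ a (ha : a ∈ c.1 \ d.1),
    (h.nk Λ u ha).tm w < R ∨ nl τ - R < (h.nk Λ u ha).tm w) : w ∈ range (W.up d c) :=
  (W.mem_range_up h.up).2 fun x hx k i => by
    obtain ⟨a, ha, y, rfl⟩ := Mark.mem_cores.1 i
    have ha' : a ∈ c.1 \ d.1 := ⟨ha, fun j => hx ((j_mem_cores j).2 rfl)⟩
    have := hw a ha'
    rw [← k, show W.φ d ((M.bn a).j (y, 0)) = W.nj d a (y, 0) from rfl, h.tm_nj Λ u ha' y (by simp)] at this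
    have z0 := len_zero h.lo h.hi
    have z1 := len_false h.hi 0
    have z2 := len_false_neg τ 0
    rw [neg_zero] at z2
    rcases this with k | k <;> linarith

theorem nk_ex {w : (W.Z d).M} (hw : w ∈ (h.nk Λ u ha).ψ.target) : ∃ q, W.nj d a q = w :=
  let ⟨q, _, e⟩ := (h.nk Λ u ha).ψ.surjOn hw
  ⟨_, (h.nk_ψ Λ u ha q.1 q.2).symm.trans e⟩

end Fl

/-! ### pieces -/

variable {π ρ : Reg A}

variable (c π) in
/-- the cell without the walls inside `π` -/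
def dc : M.Cl := ⟨{a ∈ c.1 | a ∉ M.sys.inn π}, c.2.mono fun _ h => h.1⟩

theorem mem_dc : a ∈ c.1 \ (dc c π).1 ↔ a ∈ c.1 ∧ a ∈ M.sys.inn π :=
  and_congr_right fun k => ⟨fun i => by_contra fun j => i ⟨k, j⟩, fun i j => j.2 i⟩

theorem up_dc (h : ∀ a ∈ c.1, M.pin a → a ∉ M.sys.inn π) : M.Up (dc c π) c :=
  ⟨fun _ k => k.1, fun a k i => ⟨k, h a k i⟩⟩

theorem piece_dc (h : M.sys.IsReg π) (hb : Sys.bd π ⊆ c.1) : M.sys.Piece (dc c π).1 π :=
  ⟨h, fun _ k => ⟨hb k, fun i => k i.1⟩, fun _ k => k.2⟩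

theorem U_sub_of (hb : Sys.bd π ⊆ c.1) (h : M.sys.Piece c.1 ρ) {x : X.M} (hx : x ∈ M.sys.U ρ)
    (hx' : x ∈ M.sys.U π) : M.sys.U ρ ⊆ M.sys.U π := fun y hy a b k => by
  have := M.con
  obtain ⟨b', i⟩ := h.side c.2 (hb (Sys.mem_bd_of k))
  rw [(M.sys.w a).sd_inj (hx' a b k) (i hx)]; exact i hy

/-- **the piece of `Z d` over `π` is seen on `Z c` as the union of the pieces inside `π`** -/
theorem up_mem_pc (C : Caps M) (h : M.Up d c) (hπ : M.sys.Piece d.1 π) (z : (C.Z c).M) :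
    C.up d c z ∈ C.pc d π ↔ ∃ ρ, (M.sys.Piece c.1 ρ ∧ M.sys.U ρ ⊆ M.sys.U π) ∧ z ∈ C.pc c ρ := by
  have := M.con
  have hb := hπ.bd_subset.trans h.1
  obtain ⟨ρ, h1, h2⟩ := exists_pc C z
  rw [show (∃ ρ, (M.sys.Piece c.1 ρ ∧ M.sys.U ρ ⊆ M.sys.U π) ∧ z ∈ C.pc c ρ) ↔ M.sys.U ρ ⊆ M.sys.U π from
    ⟨fun ⟨_, k, i⟩ => pc_unique C k.1 h1 i h2 ▸ k.2, fun k => ⟨ρ, ⟨h1, k⟩, h2⟩⟩]
  rcases caps_surj C z with ⟨x, hx, rfl⟩ | ⟨a, ha, hp, b, rfl⟩
  · rw [C.up_φ h hx, φ_mem_pc C hπ (Mark.cores_mono h.1 hx)]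
    rw [φ_mem_pc C h1 hx] at h2
    exact ⟨U_sub_of hb h1 h2, fun k => k h2⟩
  · rw [C.up_β h ha hp, β_mem_pc C hπ (h.2 a ha hp) hp]
    rw [β_mem_pc C h1 ha hp] at h2
    obtain ⟨x, hx⟩ := (M.sys.w a).ne b
    exact ⟨fun k => U_sub_of hb h1 (h1.adj a b h2 hx) (hπ.adj a b k hx),
      fun k => hπ.eq_some d.2 (h.2 a ha hp) (k (h1.adj a b h2 hx)) hx⟩

end Crest.Agent.X212.Geo48
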