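import Crest.Agent.X212.Geo48.Nk
import Crest.Agent.X212.Brk99.Defs

/-!
# Row 212, AB-BRK (helper48): the leaf GEO
-/

set_option autoImplicit false
set_option linter.unusedSectionVars false
noncomputable section
open Set Function Filter Topology
open scoped ContDiff Manifold

namespace Crest.Agent.X212.Geo48
open An M Cyl58 Cyf70 Cht98

theorem geo (κ lam : Type) [Fintype κ] [Fintype lam] [DecidableEq lam] : Brk99.GeoStmt κ lam := by
  intro X A _ M W N Λ Bs bs m c d u t S K hW hΛ hS hL par inf sc hd hs hK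
  have e : ∀ a b, End b (K a b) := fun a b => ⟨(hK a b).1, (hK a b).2.1, (hK a b).2.2⟩
  have eS : ∀ {a}, a ∈ c.1 \ d.1 ↔ a ∈ S := fun {a} => by
    rw [hd]; exact ⟨fun k => by_contra fun i => k.2 ⟨k.1, i⟩, fun k => ⟨sc k, fun i => i.2 k⟩⟩
  have up : M.Up d c := ⟨hd ▸ sdiff_subset, fun a k i => hd ▸ ⟨k, fun j => (hs a j).1 i⟩⟩
  have ca : ∀ a : S, a.1 ∈ c.1 ∧ ¬M.pin a := fun a => ⟨sc a.2, (hs a a.2).1⟩
  have ex : ∀ a b, ∀ z ∈ (K a b).ψ.target, ∃ y, ∃ s ∈ Hs 1 b, W.nj c a (y, s) = z := fun a b z hz =>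
    (e a b).ex (by rwa [(K a b).tgt] at hz)
  have cmp : ∀ a a' : S, a ≠ a' → M.sys.Cmp a a' := fun a a' ne => c.2 (sc a.2) (sc a'.2) (Subtype.coe_ne_coe.2 ne)
  refine ⟨fun a b => (e a b).target, ⟨W.up_oe up, fun a b => Set.ext fun r => ?_, fun a => ?_, fun a b z hz => ?_,
    fun a a' ne b b' z hz z' hz' => ?_⟩, fun R h0 => ?_⟩
  · rw [(e a b).mem_J, pm_not, mem_ofPred_eq, neg_mul, neg_pos]
  · have ct := (sm_hZ W.toCaps (.inl (ca a))).continuous
    refine ⟨?_, isOpen_lt ct continuous_const⟩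
    rw [show {z | hZ W.toCaps c a z < 0} = {z | hZ W.toCaps c a z ≤ 0} from Set.ext fun z =>
      (hZ_ne _ (ca a).1 (ca a).2 z).le_iff_lt.symm]
    exact isClosed_le ct continuous_const
  · obtain ⟨y, s, k, rfl⟩ := ex a b z hz
    rw [mem_ofPred_eq, hZ_nj _ (.inl (ca a)) (Fl.nm (eS.2 a.2) y k) ((abs_lt.2 k.1).le.trans (by norm_num))]
    have := (hs_iff.1 k).1
    cases b <;> simp only [pm, Bool.false_eq_true, if_false, if_true, iff_true, reduceCtorEq, iff_false] at * <;>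
      linarith
  · obtain ⟨y, s, k, rfl⟩ := ex a b z hz
    obtain ⟨y', s', k', rfl⟩ := ex a b' z' hz'
    obtain ⟨i, hi⟩ := Wall.exists_side (cmp a' a ne.symm)
    have a1 := (M.bn a').mem_sd.1 (hi ⟨(y, s), rfl⟩)
    have a2 := (M.bn a').mem_sd.1 (hi ⟨(y', s'), rfl⟩)
    rw [← hZ_φ W.toCaps (.inl (ca a')) (Fl.nm (eS.2 a.2) y k)] at a1
    rw [← hZ_φ W.toCaps (.inl (ca a')) (Fl.nm (eS.2 a.2) y' k')] at a2
    cases i <;> simp only [pm, Bool.false_eq_true, if_false, if_true] at a1 a2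
    exacts [iff_of_true (by simpa using a1) (by simpa using a2),
      iff_of_false (by simpa using a1.le) (by simpa using a2.le)]
  obtain ⟨τ, lo, hi, hR⟩ := exists_dep (R + 2)
  have h : Fl m c d t τ := ⟨up, fun a k => (hs a (eS.1 k)).2, par, inf, lo, hi⟩
  have hR' : R ≤ dep τ := by linarith
  have mO : ∀ z, z ∈ Brk99.O0 K R ↔ ∀ a, (K a false).tm z < R ∧ -R < (K a true).tm z := fun z =>
    forall_congr' fun a => by simp [pm, neg_lt]
  have op : IsOpen (Brk99.O0 K R) := by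
    rw [Brk99.O0, ofPred_forall]
    refine isOpen_iInter_of_finite fun a => ?_
    rw [ofPred_forall]
    exact isOpen_iInter_of_finite fun b => isOpen_lt (continuous_const.mul (K a b).cont) continuous_const
  have iff := fun (a : S) => h.tm_iff (u := u) (eS.2 a.2) (e a false) (e a true) h0 hR'
  refine ⟨fil c d τ t, h.par', h.inf', fun a k => fil_out (mt eS.1 k), fun a => h.nk Λ u (eS.2 a.2), fun _ => nl τ,
    (h.grel hS hW hL hΛ u).mono op fun z hz a k => ?_, fun a => h.nk_J Λ u _,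
    fun _ => by linarith [dep_le lo hi], fun a b y s k => ?_, fun w => ?_, fun a a' ne => ?_⟩
  · have := (mO z).1 hz ⟨a, eS.1 k⟩
    exact h.lt_hZ k (e ⟨a, eS.1 k⟩ false) (e ⟨a, eS.1 k⟩ true) hR' this.1 this.2
  · cases b <;> simp only [pm, Bool.not_false, Bool.not_true, Bool.false_eq_true, if_false, if_true, one_mul,
      neg_mul, cond_false, cond_true, add_zero] at k ⊢
    · exact h.mt0 _ (e a false) y k.1 (by linarith [k.2])
    · exact h.mt1 _ (e a true) y (by linarith [k.1]) (by linarith [k.2])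
  · simp only [mem_Icc, not_and_or, not_le]
    refine ⟨?_, fun k => ?_⟩
    · rintro ⟨z, hz, rfl⟩ a
      exact (iff a z).1 ((mO z).1 hz a)
    · obtain ⟨z, rfl⟩ := h.mem_range hR' fun a i => k ⟨a, eS.1 i⟩
      exact ⟨z, (mO z).2 fun a => (iff a z).2 (k a), rfl⟩
  · refine disjoint_left.2 fun w k k' => ?_
    obtain ⟨q, rfl⟩ := h.nk_ex _ k
    obtain ⟨q', i⟩ := h.nk_ex _ k'
    exact Mark.not_cmp ⟨q, rfl⟩ ⟨q', W.inj (Mark.fr_not_mem (h.fr (eS.2 a'.2)) ⟨_, rfl⟩)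
      (Mark.fr_not_mem (h.fr (eS.2 a.2)) ⟨_, rfl⟩) i⟩ (cmp a a' ne)

end Crest.Agent.X212.Geo48
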