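import Crest.Agent.X212.Geo48.Nk
import Crest.Agent.X212.Brk99.Defs

/-!
# Row 212, AB-BRK (helper48): the reduction before gluing
-/

set_option autoImplicit false
set_option linter.unusedSectionVars false
noncomputable section
open Set Function Filter Topology MeasureTheory
open scoped ContDiff Manifold

namespace Crest.Agent.X212.Geo48
open An M Cyl58 Cht98 Loc8
open Abel74 (RedOn sq_of_norm)

section patch
variable {E : Type} [NormedAddCommGroup E] [NormedSpace ℝ E] [FiniteDimensional ℝ E]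
  [MeasurableSpace E] [BorelSpace E]
  {HM : Type} [TopologicalSpace HM] {I : ModelWithCorners ℝ E HM}
  {Z : Type} [TopologicalSpace Z] [ChartedSpace HM Z] [IsManifold I ∞ Z] [MeasurableSpace Z]
  {ι : Type} [Fintype ι] {lam : Type} [Fintype lam] {F : Fr I Z ι} {m : Md Z ι lam} {V : m.Cn}
  {Q Q' : Set Z} {ξ : Z → m.A}

theorem red_mono (h : RedOn F m V Q ξ) (hs : Q' ⊆ Q) : RedOn F m V Q' ξ :=
  ⟨fun z k => h.sm z (hs k), fun z k => h.mem z (hs k), fun z k => h.sq z (hs k),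
    fun z k => h.par z (hs k)⟩

/-- reductions are patched along a partition into open sets -/
theorem red_patch {α : Type} {P : α → Set Z} {T : α → Prop} (hP : ∀ i, T i → IsOpen (P i))
    (hu : ∀ i j z, T i → T j → z ∈ P i → z ∈ P j → i = j) (hc : ∀ z, ∃ i, T i ∧ z ∈ P i)
    (h : ∀ i, T i → ∃ ξ, RedOn F m V (Q ∩ P i) ξ) : ∃ ξ, RedOn F m V Q ξ := by
  choose r r1 r2 using hc
  choose! ξ hξ using h
  have e : ∀ z, (fun y => ξ (r y) y) =ᶠ[𝓝 z] ξ (r z) := fun z =>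
    mem_of_superset ((hP _ (r1 z)).mem_nhds (r2 z)) fun y hy =>
      congrArg (ξ · y) (hu _ _ y (r1 y) (r1 z) (r2 y) hy)
  have k := fun z => hξ _ (r1 z)
  exact ⟨fun y => ξ (r y) y, fun z hz => ((k z).sm z ⟨hz, r2 z⟩).congr_of_eventuallyEq (e z),
    fun z hz => (k z).mem z ⟨hz, r2 z⟩, fun z hz => (k z).sq z ⟨hz, r2 z⟩,
    fun z hz a => (Wz78.nab_congr a (e z)).trans ((k z).par z ⟨hz, r2 z⟩ a)⟩

end patch

variable (κ lam : Type) [Fintype κ] [Fintype lam] [DecidableEq lam]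

/-- **(F) XI** -/
theorem xi : Brk99.XiStmt κ lam := by
  intro X A _ M W N Λ m c d p π O x₀ x hp hd hU hπ hO hs hx hS Ad hl hf
  have := M.con
  have hB := Λ.B_ok m c
  have um := up_mem_pc W.toCaps hU hπ
  have hb := hπ.bd_subset.trans hU.1
  refine ⟨Set.ext fun z => by simp only [mem_iUnion₂, mem_ofPred_eq, exists_prop, mem_preimage, um], ?_⟩
  set O' := O ∩ ⋂ a ∈ c.1 ∩ M.sys.inn π, (M.sys.w a).sd true with hO'
  have md : ∀ a ∈ c.1, a ∉ M.sys.inn π → a ∈ d.1 := fun a k k' => hd ▸ ⟨k, k'⟩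
  have tr : ∀ y ∈ O', ∀ a ∈ c.1, a ∈ M.sys.inn π → y ∈ (M.sys.w a).sd true := fun y hy a k k' =>
    mem_iInter₂.1 hy.2 a ⟨k, k'⟩
  have oO : IsOpen O' := hO.inter ((toFinite _).isOpen_biInter fun a _ => (M.sys.w a).op_sd true)
  obtain ⟨ρ₀, h0, x0⟩ := Sys.exists_piece c.2 (x := x₀) fun k => by
    obtain ⟨a, ha, k⟩ := mem_iUnion₂.1 k
    by_cases i : a ∈ M.sys.inn π
    · exact k true (tr _ hx a ha i)
    · exact disjoint_left.1 (hπ.disjoint_cores d.2) (hs hx.1) (mem_iUnion₂.2 ⟨a, md a ha i, k⟩)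
  have s0 : O' ⊆ M.sys.U ρ₀ := fun y hy a b k => by
    have ha := h0.bd_subset (Sys.mem_bd_of k)
    by_cases i : a ∈ M.sys.inn π
    · rw [(M.sys.w a).sd_inj (x0 a b k) (tr _ hx a ha i)]; exact tr _ hy a ha i
    · obtain ⟨b', j⟩ := hπ.side d.2 (md a ha i)
      rw [(M.sys.w a).sd_inj (x0 a b k) (j (hs hx.1))]; exact j (hs hy.1)
  have sr := s0.trans (U_src W.toCaps h0)
  have os := oz_sub W.toCaps h0 oO s0
  obtain ⟨ξ₀, R⟩ := exists_rd hB (Λ.G_ok m hp) Ad isOpen_interior (img_oz W.toCaps oO sr ⟨_, hx, rfl⟩)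
    (sur_oz _ oO sr hx hS) ((hl ρ₀ h0 (U_sub_of hb h0 x0 (hs hx.1))).imp
      (fun ⟨q, h1, h2⟩ => ⟨q, h1.mono os, fun z hz => h2 z (os hz)⟩) fun h z hz => h z (os hz))
  refine red_patch (P := W.pc c) (T := M.sys.Piece c.1) (fun _ => isOpen_pc W.toCaps)
    (fun _ _ _ k k' => pc_unique W.toCaps k k') (exists_pc W.toCaps) fun ρ hρ => ?_
  by_cases h1 : M.sys.U ρ ⊆ M.sys.U π
  swap
  · refine ⟨ξ₀, red_mono R.toRedOn fun z hz => (h1 ?_).elim⟩
    obtain ⟨ρ', k, k'⟩ := (um z).1 (oz_sub W.toCaps hπ hO hs hz.1)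
    exact pc_unique W.toCaps k.1 hρ k' hz.2 ▸ k.2
  by_cases h2 : ∃ a ∈ c.1, a ∈ M.sys.inn π ∧ M.sys.U ρ ⊆ (M.sys.w a).sd false
  · obtain ⟨a, ha, i, j⟩ := h2
    obtain ⟨ξ, k, n⟩ := hf ρ hρ h1 a ha i j
    exact ⟨ξ, fun z hz => k.sm.contMDiffAt ((isOpen_pc W.toCaps hρ).mem_nhds hz.2),
      fun z hz => k.mem z hz.2, fun z hz => sq_of_norm hB Ad.ok (k.mem z hz.2) (by
        rw [n z hz.2]; norm_num), fun z hz a => k.par a z hz.2⟩
  refine ⟨ξ₀, red_mono R.toRedOn (sub_oz W.toCaps ((isOpen_interior.preimage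
    (W.up_oe hU).continuous).inter (isOpen_pc W.toCaps hρ)) fun z hz => ?_)⟩
  obtain ⟨y, hy, rfl⟩ := (caps_surj W.toCaps z).resolve_right hz.2
  have yd := Mark.cores_mono hU.1 hy
  have sd := hs.trans (U_src W.toCaps hπ)
  have k : W.φ d y ∈ W.φ d '' O := oz_diff W.toCaps hO sd ▸ ⟨W.up_φ hU hy ▸ hz.1.1,
    fun ⟨a, ha, hp, b, e⟩ => caps_ne W.toCaps yd ha hp b e.symm⟩
  obtain ⟨y', k, e⟩ := k
  obtain rfl := (W.φ d).toPartialEquiv.injOn (sd k) ((W.mem_src d).2 yd) e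
  refine ⟨_, ⟨k, mem_iInter₂.2 fun a ha => ?_⟩, rfl⟩
  obtain ⟨b, j⟩ := hρ.side c.2 ha.1
  cases b
  · exact (h2 ⟨a, ha.1, ha.2, j⟩).elim
  · exact j ((φ_mem_pc W.toCaps hρ hy).1 hz.1.2)

end Crest.Agent.X212.Geo48
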