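import Crest.Agent.X212.M.Nrm
import Crest.Agent.X212.M.Rel
import Crest.Agent.X212.Cht98.Nk
import Crest.Agent.X212.Pj41.Grl
import Crest.Agent.X212.Dr59.Tex

/-!
# Row 212, AB-BRK (helper48): filling broken cylindrical walls by long necks
-/

set_option autoImplicit false
set_option linter.unusedSectionVars false
noncomputable section
open Set Function Filter Topology MeasureTheory
open scoped ContDiff Manifold

namespace Crest.Agent.X212.Geo48
open An M Cyl58 Cyf70 Cht98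
open Met55 (atx)
open Dr59 (mf)
open Pj41 (FRel GRel cmB)

section mu
variable {Z Z' : Mf 4} {ι V : Type} [Fintype ι] [NormedAddCommGroup V] [NormedSpace ℝ V]
  {F : Fr Z.I Z.M ι} {F' : Fr Z'.I Z'.M ι} {ψ : Z.M → Z'.M} {O S : Set Z.M}
  (h : FRel F F' ψ O) (e : IsOE Z.I Z'.I ψ) (hv : F.IsVol) (hv' : F'.IsVol)
include h e hv hv'

theorem map_mu : (F.μ.restrict O).map ψ = F'.μ.restrict (ψ '' O) := by
  rcases isEmpty_or_nonempty Z.M with hM | hM
  · simp [Measure.eq_zero_of_isEmpty, eq_empty_of_isEmpty O]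
  let φ := e.pd.toOpenPartialHomeomorph.restrOpen O h.op
  have s : φ.source = O := univ_inter O
  have := (Pj41.FRel.iso (φ := φ) (s ▸ h) hv hv').μ
  rwa [← φ.image_source_eq_target, s] at this

theorem int_tr (hs : S ⊆ O) (f : Z'.M → V) : ∫ x in S, f (ψ x) ∂F.μ = ∫ y in ψ '' S, f y ∂F'.μ := by
  rw [← Measure.restrict_restrict_of_subset (μ := F'.μ) (image_mono hs), ← map_mu h e hv hv',
    e.isOpenEmbedding.measurableEmbedding.setIntegral_map, preimage_image_eq _ e.inj,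
    Measure.restrict_restrict_of_subset hs]

theorem intOn_tr (hs : S ⊆ O) (f : Z'.M → V) :
    IntegrableOn (fun x => f (ψ x)) S F.μ ↔ IntegrableOn f (ψ '' S) F'.μ := by
  rw [IntegrableOn, IntegrableOn, ← Measure.restrict_restrict_of_subset (μ := F'.μ) (image_mono hs),
    ← map_mu h e hv hv', ← IntegrableOn, ← IntegrableOn,
    e.isOpenEmbedding.measurableEmbedding.integrableOn_map_iff, preimage_image_eq _ e.inj, IntegrableOn,
    IntegrableOn, Measure.restrict_restrict_of_subset hs]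
  rfl

end mu

variable {X : Mf 4} {A κ lam : Type} [Fintype A] [Fintype κ] [Fintype lam] [DecidableEq lam]
  {M : Mark X A κ} {N : ML M lam} {W : World M} {Λ : Lns W N} {m c d : M.Cl} {t : A → ℝ} {τ : ℝ} {a : A}

open Classical in
/-- the walls of `c \ d` get the parameter `τ` -/
def fil (c d : M.Cl) (τ : ℝ) (t : A → ℝ) (a : A) : ℝ := if a ∈ c.1 \ d.1 then τ else t a

theorem fil_mem (h : a ∈ c.1 \ d.1) : fil c d τ t a = τ := if_pos h

theorem fil_out (h : a ∉ c.1 \ d.1) : fil c d τ t a = t a := if_neg h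

theorem mem_O (h : t ∈ M.sys.Par) (e : Sys.inf t = c.1) (u : ℝ) : (u, t) ∈ M.O c.1 := fun a k =>
  (h.1 a).2.lt_of_ne fun i => k.1 (e ▸ i)

/-- the cylindrical walls of `c \ d` are filled -/
structure Fl (m c d : M.Cl) (t : A → ℝ) (τ : ℝ) : Prop where
  up : M.Up d c
  mem : c.1 \ d.1 ⊆ m.1
  par : t ∈ M.sys.Par
  inf : Sys.inf t = c.1
  lo : 1 / 2 ≤ τ
  hi : τ < 1

/-- `Z c` off the deep parts of the ends -/
def O0 (C : Caps M) (c d : M.Cl) (τ : ℝ) : Set (C.Z c).M := {z | ∀ a ∈ c.1 \ d.1, (1 - τ) / 2 < |hZ C c a z|}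

namespace Fl
variable (h : Fl m c d t τ)
include h

theorem cyl (ha : a ∈ c.1 \ d.1) : ¬M.pin a := fun k => ha.2 (h.up.2 a ha.1 k)

theorem fr (ha : a ∈ c.1 \ d.1) : a ∈ M.sys.fr d.1 :=
  ⟨ha.2, fun _ k => c.2 ha.1 (h.up.1 k) fun e => ha.2 (e ▸ k)⟩

theorem one (ha : a ∈ c.1) : t a = 1 := (h.inf ▸ ha : a ∈ Sys.inf t)

theorem par' : fil c d τ t ∈ M.sys.Par := by
  refine ⟨fun a => ?_, h.par.2.mono fun a k e => k ?_⟩ <;> by_cases i : a ∈ c.1 \ d.1
  · rw [fil_mem i]; exact ⟨by linarith [h.lo], h.hi.le⟩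
  · rw [fil_out i]; exact h.par.1 a
  · exact (one_ne_zero ((h.one i.1).symm.trans e)).elim
  · exact (fil_out i).trans e

theorem inf' : Sys.inf (fil c d τ t) = d.1 := Set.ext fun a => by
  show fil c d τ t a = 1 ↔ _
  by_cases i : a ∈ c.1 \ d.1
  · rw [fil_mem i]; exact iff_of_false h.hi.ne i.2
  · rw [fil_out i]
    exact ⟨fun k => by_contra fun j => i ⟨h.inf ▸ k, j⟩, fun k => h.one (h.up.1 k)⟩

theorem br (u : ℝ) : (u, t) ∈ M.Br c.1 := ⟨h.par, h.inf.ge⟩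

theorem O (u : ℝ) : (u, t) ∈ M.O c.1 := mem_O h.par h.inf u

theorem br' (u : ℝ) : (u, fil c d τ t) ∈ M.Br d.1 := ⟨h.par', h.inf'.ge⟩

theorem O' (u : ℝ) : (u, fil c d τ t) ∈ M.O d.1 := mem_O h.par' h.inf' u

theorem isOpen_O0 (C : Caps M) : IsOpen (O0 C c d τ) := by
  rw [O0, ofPred_forall]
  refine isOpen_iInter_of_finite fun a => ?_
  rw [ofPred_forall]
  exact isOpen_iInter_of_finite fun k => isOpen_lt continuous_const (sm_hZ C (.inl ⟨k.1, h.cyl k⟩)).continuous.abs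

theorem cases (C : Caps M) {z : (C.Z c).M} (hz : z ∈ O0 C c d τ) :
    (∀ a ∈ M.sys.fr d.1, C.up d c z ∈ C.φ d '' (M.bn a).slab (Icc (-2) 2) → t a = fil c d τ t a) ∨
      ∃ a ∈ c.1 \ d.1, ∃ q, (M.bn a).j q ∉ M.sys.cores c.1 ∧ C.up d c z = C.nj d a q ∧ (1 - τ) / 2 < |q.2| := by
  refine (em _).imp_right fun k => ?_
  push Not at k
  obtain ⟨a, ha, ⟨_, ⟨q, hq, rfl⟩, e⟩, k⟩ := k
  have i : a ∈ c.1 \ d.1 := by_contra fun i => k (fil_out i).symm
  obtain ⟨j, rfl⟩ := C.eq_of_up h.up (Mark.fr_not_mem ha ⟨q, rfl⟩) e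
  refine ⟨a, i, q, j, e.symm, ?_⟩
  rw [← hZ_nj C (.inl ⟨i.1, h.cyl i⟩) j (abs_le.2 ⟨by linarith [hq.2.1], by linarith [hq.2.2]⟩)]
  exact hz a i

theorem e_eq {B : Bas X univ} (hS : Std W B) (hW : W.Nrm) (u : ℝ) {z : (W.Z c).M} (hz : z ∈ O0 W.toCaps c d τ) :
    atx ((W.L m d).e (u, t)) (W.up d c z) = atx ((W.L m d).e (u, fil c d τ t)) (W.up d c z) := by
  rcases h.cases _ hz with k | ⟨a, ha, q, k, e, hq⟩
  · exact W.loc m d u _ _ _ k
  have b : (u, t) ∈ M.Br d.1 := ⟨h.par, h.up.1.trans h.inf.ge⟩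
  have k1 : (M.bn a).j q ∉ M.sys.cores (Sys.inf t) := h.inf ▸ k
  have k2 : (M.bn a).j q ∉ M.sys.cores (Sys.inf (fil c d τ t)) := h.inf' ▸ Mark.cores_mono h.up.1 k
  have lo := h.lo
  have nf : M.nf a τ q = M.nf a 1 q := funext fun i => by
    cases i
    · rw [Mark.nf, Mark.nf, Mark.wt_none (h.cyl ha), Mark.wt_none (h.cyl ha), sig_eq_sig_one lo hq.le]
    · rw [Mark.nf, Mark.nf, Mark.wt_some (h.cyl ha), Mark.wt_some (h.cyl ha)]
  have co : Met55.Co (W.k (u, t) ((M.bn a).j q)) (W.k (u, fil c d τ t) ((M.bn a).j q)) := fun α β => by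
    have a1 := hS.band u t h.par a (by rw [h.one ha.1]; exact one_ne_zero) q
      (.inr fun i => k ((j_mem_cores ha.1).2 i)) α β
    have a2 := hS.band u _ h.par' a (by rw [fil_mem ha]; linarith) q (.inl ((fil_mem ha).trans_lt h.hi)) α β
    rw [h.one ha.1, tau_one] at a1
    rw [fil_mem ha, tau_eq_one lo, nf] at a2
    exact a1.trans a2.symm
  rw [e]
  exact hW.rig m d _ _ _ (W.mem_Ω_of_br b k1) (W.mem_Ω_of_br (h.br' u) k2) ((W.co m d _ b _ k1).symm.trans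
    ((co.map (Met55.dmp X.I (W.Z d).I (W.φ d) _)).trans (W.co m d _ (h.br' u) _ k2)))

theorem a_eq {b : LBas X univ} (hL : LStd Λ b) (u : ℝ) {z : (W.Z c).M} (hz : z ∈ O0 W.toCaps c d τ) :
    (Λ.Λ m d).a (u, t) (W.up d c z) = (Λ.Λ m d).a (u, fil c d τ t) (W.up d c z) := by
  rcases h.cases _ hz with k | ⟨a, ha, q, k, e, -⟩
  · exact Λ.loc m d u _ _ _ k
  have k2 := Mark.cores_mono h.up.1 k
  have lo := h.lo
  have a1 := hL.band u t h.par a (by rw [h.one ha.1]; exact one_ne_zero) q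
  have a2 := hL.band u _ h.par' a (by rw [fil_mem ha]; linarith) q
  rw [h.one ha.1, tau_one] at a1
  rw [fil_mem ha, tau_eq_one lo] at a2
  have b1 := (Λ.iso m d (u, t) ⟨h.par, h.up.1.trans h.inf.ge⟩).par _ ((W.mem_src d).2 k2)
  have b2 := (Λ.iso m d _ (h.br' u)).par _ ((W.mem_src d).2 k2)
  rw [e]
  exact Dr59.pm_inj (W.ld k2) (add_left_cancel (b1.trans
    ((Dr59.pm_inj ((M.bn a).oe.loc q) (a1.trans a2.symm)).trans b2.symm)))

/-- **off the deep parts `Z c` is literally a part of `Z d`** -/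
theorem grel {B : Bas X univ} (hS : Std W B) (hW : W.Nrm) {b : LBas X univ} (hL : LStd Λ b) (hΛ : Λ.Nrm)
    (u : ℝ) : GRel (Λ.B m c) (Λ.G m c (u, t)) (Λ.B m d) (Λ.G m d (u, fil c d τ t)) (W.up d c)
      (O0 W.toCaps c d τ) := by
  have fr : FRel (W.F m c (u, t)) (W.F m d (u, fil c d τ t)) (W.up d c) (O0 W.toCaps c d τ) :=
    hW.fRel h.up h.mem (h.O u) (h.isOpen_O0 _) fun z hz => by
      rw [World.F, Lay.F_e _ (Mark.mem_Ω _ (h.O' u)), Mark.mp_br (h.br u), h.e_eq hS hW u hz]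
  refine Pj41.FRel.gRel (G := Λ.G m c (u, t)) (G' := Λ.G m d (u, fil c d τ t)) fr
    (Lns.Nrm.B hW hΛ h.up h.mem) fun i z hz => ?_
  change Line51.rl (((Λ.Λ m c).ln _).cm _ z ((W.F m c (u, t)).e i z)) =
    Line51.rl (((Λ.Λ m d).ln _).cm _ _ ((W.F m d (u, fil c d τ t)).e i _))
  rw [← fr.e i z hz, hΛ.ln h.up h.mem, Mark.mp_br (h.br u),
    Line51.cm_pull (((Λ.Λ m d).ln_on _).sm _ trivial) (W.md_up h.up z),
    Line51.cm_congr (L := (Λ.Λ m d).ln (u, fil c d τ t)) (L' := (Λ.Λ m d).ln (u, t)) (.of_eq rfl)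
      (h.a_eq hL u hz)]
  rfl

end Fl

end Crest.Agent.X212.Geo48
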